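import Vale.Agent.P022K.Glue.Gal

/-! # P022K, gluing of Galois representations: the reducible case -/

set_option linter.all false

open Matrix Topology

noncomputable section

namespace Vale.Agent.P022K.Glue

open Vale.Agent.P022 Vale.Agent.P022K.Cheb

variable {E : Type*} [Field E] {G : Type*} [Group G]

theorem hom_ne (χ : G →* E) (x : G) : χ x ≠ 0 := ((Group.isUnit x).map χ).ne_zero

theorem two_det (x : Matrix (Fin 2) (Fin 2) E) : 2 * x.det = x.trace ^ 2 - (x * x).trace := by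
  simp only [det_fin_two, trace_fin_two, mul_apply, Fin.sum_univ_two]
  ring

/-- a sum of two characters determines the characters -/
theorem chars (h2 : (2 : E) ≠ 0) {χ χ' ψ ψ' : G →* E} (h : ∀ x, ψ x + ψ' x = χ x + χ' x) :
    ψ = χ ∨ ψ = χ' := by
  have k : ∀ x, ψ x = χ x ∨ ψ x = χ' x := fun x => by
    have h1 := h x
    have h3 := h (x * x)
    simp only [map_mul] at h3
    have : 2 * ((ψ x - χ x) * (ψ x - χ' x)) = 0 := by
      linear_combination h3 + (ψ x - ψ' x - χ x - χ' x) * h1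
    simpa only [mul_eq_zero, h2, false_or, sub_eq_zero] using this
  by_contra n
  simp only [not_or, MonoidHom.ext_iff, not_forall] at n
  obtain ⟨⟨x, hx⟩, y, hy⟩ := n
  have a := (k x).resolve_left hx
  have b := (k y).resolve_right hy
  rcases k (x * y) with c | c <;> rw [map_mul, map_mul, a, b] at c
  · exact hx (a.trans (mul_right_cancel₀ (hom_ne χ y) c))
  · exact hy (b.trans (mul_left_cancel₀ (hom_ne χ' x) c))

/-- the diagonal representation -/
def dg (χ χ' : G →* E) : G →* Matrix (Fin 2) (Fin 2) E where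
  toFun x := !![χ x, 0; 0, χ' x]
  map_one' := by simp [one_fin_two]
  map_mul' x y := by simp

theorem dg_apply (χ χ' : G →* E) (x : G) : dg χ χ' x = !![χ x, 0; 0, χ' x] := rfl

theorem trace_dg (χ χ' : G →* E) (x : G) : (dg χ χ' x).trace = χ x + χ' x := trace_fin_two_of _ _ _ _

/-- diagonalisation -/
theorem diag {m : Matrix (Fin 2) (Fin 2) E} {a b : E} (h : a ≠ b) (h1 : m.trace = a + b)
    (h2 : m.det = a * b) : ∃ P Q : Matrix (Fin 2) (Fin 2) E, P * Q = 1 ∧ Q * P = 1 ∧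
      P * m * Q = !![a, 0; 0, b] := by
  rw [trace_fin_two] at h1
  rw [det_fin_two] at h2
  suffices k : ∃ Q : Matrix (Fin 2) (Fin 2) E, Q.det ≠ 0 ∧ m * Q = Q * !![a, 0; 0, b] by
    obtain ⟨Q, q1, q2⟩ := k
    have u := q1.isUnit
    exact ⟨Q⁻¹, Q, nonsing_inv_mul _ u, mul_nonsing_inv _ u, by
      rw [mul_assoc, q2, ← mul_assoc, nonsing_inv_mul _ u, one_mul]⟩
  by_cases c : m 0 0 = b
  · have d : m 1 1 = a := by linear_combination h1 - c
    have e : m 0 1 * m 1 0 = 0 := by rw [c, d] at h2; linear_combination -h2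
    refine ⟨!![m 0 1, a - b; a - b, -m 1 0], ?_, ?_⟩
    · rw [det_fin_two_of]
      intro k
      exact pow_ne_zero 2 (sub_ne_zero.2 h) (by linear_combination -k - e)
    · ext i j
      fin_cases i <;> fin_cases j <;> simp [mul_apply, Fin.sum_univ_two, c, d]
      · ring
      · linear_combination -e
      · linear_combination e
      · ring
  · refine ⟨!![m 0 0 - b, -m 0 1; m 1 0, m 0 0 - b], ?_, ?_⟩
    · rw [det_fin_two_of]
      intro k
      exact mul_ne_zero (sub_ne_zero.2 c) (sub_ne_zero.2 h) (by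
        linear_combination k + h2 - m 0 0 * h1)
    · ext i j
      fin_cases i <;> fin_cases j <;> simp [mul_apply, Fin.sum_univ_two]
      · linear_combination m 0 0 * h1 - h2
      · ring
      · linear_combination m 1 0 * h1
      · linear_combination h2 - b * h1

/-- the diagonal entries of a triangular representation -/
def ent (s : G →* Matrix (Fin 2) (Fin 2) E) (h : (∀ x, s x 1 0 = 0) ∨ ∀ x, s x 0 1 = 0)
    (i : Fin 2) : G →* E where
  toFun x := s x i i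
  map_one' := by simp
  map_mul' x y := by
    rcases h with h | h <;> fin_cases i <;> simp [mul_apply, Fin.sum_univ_two, h]

theorem ent0 {x : Matrix (Fin 2) (Fin 2) E} {a b : E} :
    x 0 0 * (a - b) = (x * !![a, 0; 0, b]).trace - b * x.trace ∧
    x 1 1 * (a - b) = a * x.trace - (x * !![a, 0; 0, b]).trace := by
  simp only [trace_fin_two, mul_apply, Fin.sum_univ_two, of_apply, cons_val', cons_val_zero,
    cons_val_one, cons_val_fin_one]
  constructor <;> ring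

/-- semisimplification with respect to a normal subgroup -/
theorem semi (h2 : (2 : E) ≠ 0) [TopologicalSpace G] [TopologicalSpace E] [IsTopologicalRing E]
    {s : G →* Matrix (Fin 2) (Fin 2) E} (hs : Continuous s) (H : Subgroup G) [hn : H.Normal]
    {χ χ' : H →* E} (h : ∀ x : H, (s x).trace = χ x + χ' x) {z : H} (hz : χ z ≠ χ' z) :
    ∃ s' : G →* Matrix (Fin 2) (Fin 2) E, Continuous s' ∧ (∀ x, (s' x).trace = (s x).trace) ∧
      ∀ x : H, s' x = dg χ χ' x := by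
  obtain ⟨P, Q, p, q, e⟩ := diag hz (h z) (mul_left_cancel₀ h2 (by
    rw [two_det, ← map_mul, ← Subgroup.coe_mul, h, h, map_mul, map_mul]; ring))
  obtain ⟨u, hu⟩ : ∃ u : G →* Matrix (Fin 2) (Fin 2) E, ∀ x, u x = P * s x * Q :=
    ⟨(cjH p q).comp s, fun _ => rfl⟩
  have u1 : Continuous u := by
    rw [show ⇑u = fun x => P * s x * Q from funext hu]
    exact (continuous_const.mul hs).mul continuous_const
  have u2 : ∀ x, (u x).trace = (s x).trace := fun x => by rw [hu, trace_conj q]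
  rw [← hu] at e
  have ab := sub_ne_zero.2 hz
  have d : ∀ x : H, u x 0 0 = χ x ∧ u x 1 1 = χ' x := fun x => by
    obtain ⟨k1, k2⟩ := ent0 (x := u x) (a := χ z) (b := χ' z)
    rw [← e, ← map_mul, u2, u2, ← Subgroup.coe_mul, h, h, map_mul, map_mul] at k1 k2
    exact ⟨mul_right_cancel₀ ab (k1.trans (by ring)), mul_right_cancel₀ ab (k2.trans (by ring))⟩
  have tri : ((∀ x, u x 1 0 = 0) ∨ ∀ x, u x 0 1 = 0) → ∃ s' : G →* Matrix (Fin 2) (Fin 2) E,
      Continuous s' ∧ (∀ x, (s' x).trace = (s x).trace) ∧ ∀ x : H, s' x = dg χ χ' x := fun t =>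
    ⟨dg (ent u t 0) (ent u t 1), continuous_matrix fun i j => by
      fin_cases i <;> fin_cases j
      exacts [u1.matrix_elem 0 0, continuous_const, continuous_const, u1.matrix_elem 1 1],
      fun x => by rw [trace_dg, ← u2, trace_fin_two]; rfl, fun x => by
        rw [dg_apply, dg_apply, ← (d x).1, ← (d x).2]; rfl⟩
  have bc : ∀ x y : H, u x 0 1 * u y 1 0 = 0 := fun x y => by
    have := (d (x * y)).1
    rw [Subgroup.coe_mul, map_mul, mul_apply, Fin.sum_univ_two, (d x).1, (d y).1, map_mul] at this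
    linear_combination this
  have cj : ∀ (g : G) (x : H), ∃ y : H, u g * u y = u x * u g := fun g x =>
    ⟨⟨g⁻¹ * x * g, hn.conj_mem' _ x.2 g⟩, by
      rw [← map_mul, ← map_mul, ← mul_assoc, mul_inv_cancel_left]⟩
  have cj' : ∀ (g : G) (x : H), ∃ y : H, u y * u g = u g * u x := fun g x =>
    ⟨⟨g * x * g⁻¹, hn.conj_mem _ x.2 g⟩, by
      rw [← map_mul, ← map_mul, inv_mul_cancel_right]⟩
  have z01 : u z 0 1 = 0 := by rw [e]; rfl
  have z10 : u z 1 0 = 0 := by rw [e]; rfl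
  by_cases b : ∃ x : H, u x 0 1 ≠ 0
  · obtain ⟨x, hx⟩ := b
    have c : ∀ y : H, u y 1 0 = 0 := fun y => (mul_eq_zero.1 (bc x y)).resolve_left hx
    refine tri (Or.inl fun g => by_contra fun n => ?_)
    have k : ∀ w : H, u w 0 0 * u g 0 0 + u w 0 1 * u g 1 0 = u g 0 0 * u w 1 1 := fun w => by
      obtain ⟨y, hy⟩ := cj g w
      have k0 := congrFun (congrFun hy 0) 0
      have k1 := congrFun (congrFun hy 1) 0
      simp only [mul_apply, Fin.sum_univ_two, c, mul_zero, zero_mul, add_zero, zero_add] at k0 k1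
      rw [← k0, mul_left_cancel₀ n (k1.trans (mul_comm _ _))]
    have k0 := k z
    rw [z01, (d z).1, (d z).2] at k0
    have k1 : u g 0 0 = 0 := (mul_eq_zero.1 (show (χ z - χ' z) * u g 0 0 = 0 by
      linear_combination k0)).resolve_left ab
    have k2 := k x
    rw [k1, mul_zero, zero_mul, zero_add] at k2
    exact mul_ne_zero hx n k2
  by_cases c : ∃ x : H, u x 1 0 ≠ 0
  · obtain ⟨x, hx⟩ := c
    push Not at b
    refine tri (Or.inr fun g => by_contra fun n => ?_)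
    have k : ∀ w : H, u g 0 0 * u w 0 0 + u g 0 1 * u w 1 0 = u w 1 1 * u g 0 0 := fun w => by
      obtain ⟨y, hy⟩ := cj' g w
      have k0 := congrFun (congrFun hy 0) 0
      have k1 := congrFun (congrFun hy 0) 1
      simp only [mul_apply, Fin.sum_univ_two, b, mul_zero, zero_mul, add_zero, zero_add] at k0 k1
      rw [← k0, mul_right_cancel₀ n (k1.trans (mul_comm _ _))]
    have k0 := k z
    rw [z10, (d z).1, (d z).2] at k0
    have k1 : u g 0 0 = 0 := (mul_eq_zero.1 (show (χ z - χ' z) * u g 0 0 = 0 by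
      linear_combination k0)).resolve_left ab
    have k2 := k x
    rw [k1, mul_zero, zero_mul, zero_add] at k2
    exact mul_ne_zero n hx k2
  push Not at b c
  refine ⟨u, u1, u2, fun x => ?_⟩
  rw [dg_apply, ← (d x).1, ← (d x).2, ← b x]
  conv_rhs => rw [b x, ← c x]
  conv_lhs => rw [eta_fin_two (u x), b x, c x]
  rw [c x]

/-- a representation which does not span has the trace of a sum of two characters -/
theorem red_chars [IsAlgClosed E] {ρ : G →* Matrix (Fin 2) (Fin 2) E} (h : ¬ Spans ρ Set.univ) :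
    ∃ χ χ' : G →* E, ∀ x, (ρ x).trace = χ x + χ' x := by
  obtain ⟨v, v0, hv⟩ : ∃ v : Fin 2 → E, v ≠ 0 ∧ ∀ g, ∃ a : E, ρ g *ᵥ v = a • v := by
    by_contra n
    push Not at n
    exact h (burnside ρ n)
  obtain ⟨Q, q1, q2⟩ : ∃ Q : Matrix (Fin 2) (Fin 2) E, Q.det ≠ 0 ∧ Q *ᵥ ![1, 0] = v := by
    by_cases c : v 0 = 0
    · refine ⟨!![0, 1; v 1, 0], ?_, funext fun i => by fin_cases i <;> simp [c]⟩
      rw [det_fin_two_of]
      simpa using fun e => v0 (funext fun i => by fin_cases i; exacts [c, e])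
    · exact ⟨!![v 0, 0; v 1, 1], by simpa using c, funext fun i => by fin_cases i <;> simp⟩
  have p := nonsing_inv_mul _ q1.isUnit
  have q := mul_nonsing_inv _ q1.isUnit
  have t : ∀ x, ((cjH p q).comp ρ) x 1 0 = 0 := fun x => by
    obtain ⟨a, ha⟩ := hv x
    have : (Q⁻¹ * ρ x * Q) *ᵥ ![1, 0] = a • ![1, 0] := by
      rw [← mulVec_mulVec, ← mulVec_mulVec, q2, ha, mulVec_smul, ← q2, mulVec_mulVec, p, one_mulVec]
    show (Q⁻¹ * ρ x * Q) 1 0 = 0
    simpa [mulVec, dotProduct, Fin.sum_univ_two] using congrFun this 1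
  exact ⟨ent _ (Or.inl t) 0, ent _ (Or.inl t) 1, fun x =>
    (trace_conj q (ρ x)).symm.trans (trace_fin_two _)⟩

/-- matrices which intertwine two diagonal representations on a subgroup -/
theorem twine (h2 : (2 : E) ≠ 0) {χ χ' ψ ψ' : G →* E} (h : ∀ x, ψ x + ψ' x = χ x + χ' x) {z : G}
    (hz : χ z ≠ χ' z) {m : Matrix (Fin 2) (Fin 2) E} (e : m * dg χ χ' z = dg ψ ψ' z * m) (x : G) :
    m * dg χ χ' x = dg ψ ψ' x * m := by
  have k : ∀ i j, (m * dg χ χ' z) i j = (dg ψ ψ' z * m) i j := fun i j => by rw [e]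
  have k00 := k 0 0
  have k01 := k 0 1
  have k10 := k 1 0
  have k11 := k 1 1
  have ab := sub_ne_zero.2 hz
  simp only [dg_apply, mul_apply, Fin.sum_univ_two, of_apply, cons_val', cons_val_zero,
    cons_val_one, cons_val_fin_one, mul_zero, zero_mul, add_zero, zero_add] at k00 k01 k10 k11
  rcases chars h2 h with rfl | rfl
  · obtain rfl : ψ' = χ' := MonoidHom.ext fun x => add_left_cancel (h x)
    have a : m 0 1 = 0 := (mul_eq_zero.1 (show (ψ z - ψ' z) * m 0 1 = 0 by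
      linear_combination -k01)).resolve_left ab
    have b : m 1 0 = 0 := (mul_eq_zero.1 (show (ψ z - ψ' z) * m 1 0 = 0 by
      linear_combination k10)).resolve_left ab
    ext i j
    fin_cases i <;> fin_cases j <;> simp [dg_apply, mul_apply, Fin.sum_univ_two, a, b, mul_comm]
  · obtain rfl : ψ' = χ := MonoidHom.ext fun x => add_left_cancel ((h x).trans (add_comm _ _))
    have a : m 0 0 = 0 := (mul_eq_zero.1 (show (ψ' z - ψ z) * m 0 0 = 0 by
      linear_combination k00)).resolve_left ab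
    have b : m 1 1 = 0 := (mul_eq_zero.1 (show (ψ' z - ψ z) * m 1 1 = 0 by
      linear_combination -k11)).resolve_left ab
    ext i j
    fin_cases i <;> fin_cases j <;> simp [dg_apply, mul_apply, Fin.sum_univ_two, a, b, mul_comm]

variable [TopologicalSpace E] [IsTopologicalRing E] [T2Space E]

theorem dsj_prod {A C D : Subgroup GQ} (d : Dsj C A) (d' : Dsj D (A ⊓ C)) (g : D) :
    ∃ a ∈ A.subgroupOf D, ∃ c ∈ C.subgroupOf D, g = a * c := by
  obtain ⟨x, x1, x2⟩ := d (g : GQ)⁻¹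
  obtain ⟨z, z1, z2⟩ := d' ((g : GQ)⁻¹⁻¹ * x)
  refine ⟨⟨z, z1⟩, ?_, ⟨z, z1⟩⁻¹ * g, ?_, by group⟩
  · have := mul_mem x2 z2.1
    rwa [mul_inv_cancel_left] at this
  · have := C.mul_mem (C.inv_mem z2.2) (C.inv_mem x1)
    rw [_root_.mul_inv_rev, inv_inv, inv_inv, ← mul_assoc, mul_inv_cancel_right] at this
    exact this

/-- **GLR**: gluing if the first representation is a sum of two characters -/
theorem compR (h2 : (2 : E) ≠ 0) {τ : GQ → E} (hτ : ∀ g x, τ (g * x * g⁻¹) = τ x)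
    {A : Subgroup GQ} [hn : A.Normal] (hA : IsOpen (A : Set GQ))
    {r : A →* Matrix (Fin 2) (Fin 2) E} (hr : Cm τ A r) {χ χ' : A →* E}
    (h : ∀ a, (r a).trace = χ a + χ' a)
    (hne : ∀ U : Subgroup GQ, IsOpen (U : Set GQ) → ∃ a : A, (a : GQ) ∈ U ∧ χ a ≠ χ' a)
    (C : Subgroup GQ) (hC : IsOpen (C : Set GQ)) (d : Dsj C A)
    (s : C →* Matrix (Fin 2) (Fin 2) E) (hs : Cm τ C s) :
    ∃ ρ : GQ →* Matrix (Fin 2) (Fin 2) E, Continuous ρ ∧ (∀ a : A, ρ a = dg χ χ' a) ∧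
      ∀ D : Subgroup GQ, IsOpen (D : Set GQ) → Dsj D (A ⊓ C) →
      ∀ t : D →* Matrix (Fin 2) (Fin 2) E, Cm τ D t → ∀ x : D, (t x).trace = (ρ x).trace := by
  have key : ∀ D : Subgroup GQ, IsOpen (D : Set GQ) → ∀ t : D →* Matrix (Fin 2) (Fin 2) E,
      Cm τ D t → ∃ t' : D →* Matrix (Fin 2) (Fin 2) E, Continuous t' ∧
        (∀ x, (t' x).trace = (t x).trace) ∧
        ∀ x (a : x ∈ A) (c : x ∈ D), dg χ χ' ⟨x, a⟩ = t' ⟨x, c⟩ := fun D hD t ht => by
    let i : A.subgroupOf D →* A := (D.subtype.comp (A.subgroupOf D).subtype).codRestrict A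
      fun x => x.2
    obtain ⟨z, z1, z2⟩ := hne D hD
    obtain ⟨t', a, b, c⟩ := semi h2 ht.1 (A.subgroupOf D) (χ := χ.comp i) (χ' := χ'.comp i)
      (fun x => (hr.eq hA hD ht x.1 x.2 x.1.2).symm.trans (h _)) (z := ⟨⟨z, z1⟩, z.2⟩) z2
    exact ⟨t', a, b, fun x m m' => (c ⟨⟨x, m'⟩, m⟩).symm⟩
  obtain ⟨s', s1, s2, s3⟩ := key C hC s hs
  have hG : ∀ g : GQ, ∃ a ∈ A, ∃ c ∈ C, g = a * c := fun g => by
    obtain ⟨x, x1, x2⟩ := d g⁻¹
    exact ⟨_, x2, _, inv_mem x1, by group⟩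
  obtain ⟨ρ, a, b⟩ := glue0 hG (dg χ χ') s' s3 fun c a a' ha => by
    obtain ⟨φ, hφ⟩ : ∃ φ : A →* A, ∀ x, (φ x : GQ) = c * x * (c : GQ)⁻¹ :=
      ⟨(MulAut.conjNormal (c : GQ)).toMonoidHom, fun _ => MulAut.conjNormal_apply _ _⟩
    obtain ⟨z, z1, z2⟩ := hne C hC
    obtain rfl : a' = φ a := Subtype.ext (ha.trans (hφ _).symm)
    refine twine h2 (ψ := χ.comp φ) (ψ' := χ'.comp φ)
      (fun x => (h _).symm.trans ((hr.conj hτ hA c x _ (hφ x)).trans (h x))) z2 ?_ a
    have m : (φ z : GQ) ∈ C := hφ z ▸ mul_mem (mul_mem c.2 z1) (inv_mem c.2)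
    have k1 : dg (χ.comp φ) (χ'.comp φ) z = s' ⟨_, m⟩ := s3 _ (φ z).2 m
    have k2 : dg χ χ' z = s' ⟨_, z1⟩ := s3 _ z.2 z1
    rw [k1, k2, ← map_mul, ← map_mul]
    exact congrArg s' (Subtype.ext (by
      show (c : GQ) * z = φ z * c
      rw [hφ, inv_mul_cancel_right]))
  obtain ⟨r', r1, -, r3⟩ := key A hA r hr
  refine ⟨ρ, cont_of_open hA ρ (r1.congr fun x => ((a x).trans (r3 x x.2 x.2)).symm), a,
    fun D hD d' t ht x => ?_⟩
  obtain ⟨t', -, t2, t3⟩ := key D hD t ht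
  obtain ⟨y, y1, w, w1, rfl⟩ := dsj_prod d d' x
  obtain ⟨z, z1, z2⟩ := hne (C ⊓ D) (hC.inter hD)
  have tc : ∀ v : D, (v : GQ) ∈ C → (t' v).trace = (ρ v).trace := fun v m => by
    rw [t2, ← hs.eq hC hD ht v m v.2, ← s2, ← b ⟨v, m⟩]
  have k1 : t' ⟨z, z1.2⟩ = !![χ z, 0; 0, χ' z] := (t3 _ z.2 z1.2).symm
  have k2 : ρ z = !![χ z, 0; 0, χ' z] := a z
  have k3 := tc (w * ⟨z, z1.2⟩) (C.mul_mem w1 z1.1)
  rw [Subgroup.coe_mul, map_mul, map_mul, k1, k2] at k3
  obtain ⟨e1, e2⟩ := ent0 (x := t' w) (a := χ z) (b := χ' z)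
  obtain ⟨e3, e4⟩ := ent0 (x := ρ w) (a := χ z) (b := χ' z)
  rw [k3, tc w w1, ← e3] at e1
  rw [k3, tc w w1, ← e4] at e2
  rw [← t2, Subgroup.coe_mul, map_mul, map_mul, ← t3 y y1 y.2, a ⟨y, y1⟩, dg_apply]
  simp only [trace_fin_two, mul_apply, Fin.sum_univ_two, of_apply, cons_val', cons_val_zero,
    cons_val_one, cons_val_fin_one, zero_mul, add_zero, zero_add,
    mul_right_cancel₀ (sub_ne_zero.2 z2) e1, mul_right_cancel₀ (sub_ne_zero.2 z2) e2]

omit [IsTopologicalRing E] in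
theorem open_unit : IsOpen {x : E | IsUnit x} := by
  simp only [isUnit_iff_ne_zero]
  exact isOpen_ne

/-- **COMP for traces**, no irreducibility: the glued representation is absolutely irreducible or
diagonal -/
theorem compT [IsAlgClosed E] (h2 : (2 : E) ≠ 0) {τ : GQ → E}
    (hτ : ∀ g x, τ (g * x * g⁻¹) = τ x) {A : Subgroup GQ} [hn : A.Normal]
    (hA : IsOpen (A : Set GQ)) {r : A →* Matrix (Fin 2) (Fin 2) E} (hr : Cm τ A r)
    (hne : ∀ U : Subgroup GQ, IsOpen (U : Set GQ) →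
      ∃ a : A, (a : GQ) ∈ U ∧ (r a).trace ^ 2 ≠ 4 * (r a).det) :
    ∃ W : Subgroup GQ, W.Normal ∧ IsOpen (W : Set GQ) ∧ W ≤ A ∧
      ∀ C : Subgroup GQ, C.Normal → IsOpen (C : Set GQ) → Dsj C W →
      ∀ s : C →* Matrix (Fin 2) (Fin 2) E, Cm τ C s →
      ∃ ρ : GQ →* Matrix (Fin 2) (Fin 2) E, Continuous ρ ∧
        (Spans ρ Set.univ ∨ ∃ χ χ' : GQ →* E, ρ = dg χ χ') ∧
        (∀ a : A, (ρ a).trace = (r a).trace) ∧
        ∀ D : Subgroup GQ, IsOpen (D : Set GQ) → Dsj D (W ⊓ C) →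
        ∀ t : D →* Matrix (Fin 2) (Fin 2) E, Cm τ D t → ∀ x : D, (t x).trace = (ρ x).trace := by
  by_cases hs : Spans r Set.univ
  · obtain ⟨W, a, b, c, d⟩ := comp open_unit hτ hA hr hs
    refine ⟨W, a, b, c, fun C h1 h3 h4 s h5 => ?_⟩
    obtain ⟨ρ, e, f, g⟩ := d C h1 h3 h4 s h5
    exact ⟨ρ, e, Or.inl (hs.of_image fun x _ => ⟨x, trivial, f x⟩), fun a => by rw [f],
      fun D h6 h7 t h8 x => ((g D h6 h7 t h8).trace x).symm⟩
  obtain ⟨χ, χ', h⟩ := red_chars hs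
  have ne : ∀ U : Subgroup GQ, IsOpen (U : Set GQ) → ∃ a : A, (a : GQ) ∈ U ∧ χ a ≠ χ' a :=
    fun U hU => by
      obtain ⟨a, a1, a2⟩ := hne U hU
      refine ⟨a, a1, fun e => a2 ?_⟩
      have := two_det (r a)
      rw [← map_mul, h, h, map_mul, map_mul, e] at this
      rw [h, e]
      linear_combination (-2) * this
  refine ⟨A, hn, hA, le_rfl, fun C h1 h3 h4 s h5 => ?_⟩
  obtain ⟨ρ, e, f, g⟩ := compR h2 hτ hA hr h ne C h3 h4 s h5
  by_cases k : Spans ρ Set.univ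
  · exact ⟨ρ, e, Or.inl k, fun a => by rw [f, trace_dg, h], g⟩
  obtain ⟨ψ, ψ', k⟩ := red_chars k
  obtain ⟨z, -, hz⟩ := ne ⊤ isOpen_univ
  have k1 : ∀ a : A, ψ a + ψ' a = χ a + χ' a := fun a => by rw [← k, f, trace_dg]
  obtain ⟨ρ', a, b, c⟩ := semi h2 e ⊤ (χ := ψ.comp (Subgroup.subtype ⊤))
    (χ' := ψ'.comp (Subgroup.subtype ⊤)) (fun x => k x) (z := ⟨z, trivial⟩) fun e' => by
      have e1 : ψ z = ψ' z := e'
      rcases chars h2 (ψ := ψ.comp A.subtype) (ψ' := ψ'.comp A.subtype) k1 with k2 | k2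
      · have k3 : ψ z = χ z := DFunLike.congr_fun k2 z
        exact hz (by linear_combination k1 z - 2 * k3 + e1)
      · have k3 : ψ z = χ' z := DFunLike.congr_fun k2 z
        exact hz (by linear_combination -k1 z + 2 * k3 - e1)
  exact ⟨ρ', a, Or.inr ⟨ψ, ψ', MonoidHom.ext fun x => c ⟨x, trivial⟩⟩,
    fun a => by rw [b, f, trace_dg, h], fun D h6 h7 t h8 x => by rw [b, g D h6 h7 t h8]⟩

end Vale.Agent.P022K.Glue
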