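import Mathlib

/-! # P022K, gluing of representations: the algebra

Representations whose image spans the matrix algebra: they are determined by their traces up to
conjugation (over local rings), and two of them on normal subgroups `G₁`, `G₂` with `G₁ G₂ = G`
glue to a representation of `G`. -/

set_option linter.all false

open Matrix

noncomputable section

namespace Vale.Agent.P022K.Glue

variable {n B : Type*} [Fintype n] [DecidableEq n] [CommRing B]

/-- the values of `ρ` on `T` span the matrix algebra -/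
def Spans {H : Type*} (ρ : H → Matrix n n B) (T : Set H) : Prop :=
  Submodule.span B (ρ '' T) = ⊤

theorem Spans.mono {H : Type*} {ρ : H → Matrix n n B} {T T' : Set H} (h : Spans ρ T)
    (hT : T ⊆ T') : Spans ρ T' :=
  eq_top_iff.2 (h.ge.trans (Submodule.span_mono (Set.image_mono hT)))

theorem Spans.of_image {H H' : Type*} {ρ : H → Matrix n n B} {ρ' : H' → Matrix n n B} {T : Set H}
    {T' : Set H'} (h : Spans ρ T) (hT : ∀ x ∈ T, ∃ y ∈ T', ρ' y = ρ x) : Spans ρ' T' :=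
  eq_top_iff.2 (h.ge.trans (Submodule.span_mono fun _ ⟨x, hx, e⟩ => e ▸ hT x hx))

/-- the trace form is non-degenerate -/
theorem Spans.ext {H : Type*} {ρ : H → Matrix n n B} {T : Set H} (h : Spans ρ T)
    {x y : Matrix n n B} (e : ∀ t ∈ T, (x * ρ t).trace = (y * ρ t).trace) : x = y := by
  refine Matrix.ext_iff_trace_mul_right.2 fun z => ?_
  induction h.ge (Submodule.mem_top : z ∈ ⊤) using Submodule.span_induction with
  | mem z hz => obtain ⟨t, ht, rfl⟩ := hz; exact e t ht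
  | zero => simp
  | add a b _ _ h1 h2 => rw [mul_add, mul_add, trace_add, trace_add, h1, h2]
  | smul c a _ h1 => rw [Matrix.mul_smul, Matrix.mul_smul, trace_smul, trace_smul, h1]

/-- a matrix which commutes with a spanning family is a scalar -/
theorem Spans.schur {H : Type*} {ρ : H → Matrix n n B} {T : Set H} (h : Spans ρ T)
    {x : Matrix n n B} (e : ∀ t ∈ T, x * ρ t = ρ t * x) : ∃ c : B, x = Matrix.scalar n c := by
  have : ∀ z, x * z = z * x := fun z => by
    induction h.ge (Submodule.mem_top : z ∈ ⊤) using Submodule.span_induction with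
    | mem z hz => obtain ⟨t, ht, rfl⟩ := hz; exact e t ht
    | zero => simp
    | add a b _ _ h1 h2 => rw [mul_add, add_mul, h1, h2]
    | smul c a _ h1 => rw [Matrix.mul_smul, Matrix.smul_mul, h1]
  obtain ⟨c, hc⟩ := Matrix.mem_range_scalar_of_commute_single (M := x) fun i j _ => (this _).symm
  exact ⟨c, hc.symm⟩

/-- two representations with the same traces which agree on a spanning set are equal -/
theorem eq_of_trace {H : Type*} [Monoid H] {ρ ρ' : H →* Matrix n n B} {T : Set H} (h : Spans ρ T)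
    (e : ∀ t ∈ T, ρ t = ρ' t) (ht : ∀ x, (ρ x).trace = (ρ' x).trace) : ρ = ρ' :=
  MonoidHom.ext fun x => h.ext fun t m => by rw [← map_mul, ht, map_mul, e t m]

/-- `ρ'` is conjugate to `ρ` -/
def Cj {H : Type*} (ρ ρ' : H → Matrix n n B) : Prop :=
  ∃ P Q : Matrix n n B, P * Q = 1 ∧ Q * P = 1 ∧ ∀ x, ρ' x = P * ρ x * Q

theorem Cj.symm {H : Type*} {ρ ρ' : H → Matrix n n B} (h : Cj ρ ρ') : Cj ρ' ρ := by
  obtain ⟨P, Q, a, b, c⟩ := h
  refine ⟨Q, P, b, a, fun x => ?_⟩
  rw [c, ← mul_assoc, ← mul_assoc, b, one_mul, mul_assoc, b, mul_one]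

theorem trace_conj {P Q : Matrix n n B} (h : Q * P = 1) (x : Matrix n n B) :
    (P * x * Q).trace = x.trace := by
  rw [trace_mul_comm, ← mul_assoc, h, one_mul]

theorem Cj.trace {H : Type*} {ρ ρ' : H → Matrix n n B} (h : Cj ρ ρ') (x : H) :
    (ρ' x).trace = (ρ x).trace := by
  obtain ⟨P, Q, -, b, c⟩ := h
  rw [c, trace_conj b]

/-- conjugation -/
def cjH {P Q : Matrix n n B} (a : P * Q = 1) (b : Q * P = 1) : Matrix n n B →* Matrix n n B where
  toFun x := P * x * Q
  map_one' := by rw [mul_one, a]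
  map_mul' x y := by
    simp only [mul_assoc]
    rw [← mul_assoc Q, b, one_mul]

/-- a multiplicative, trace preserving linear map of the matrix algebra over a local ring is a
conjugation -/
theorem inner [IsLocalRing B] (ψ : Matrix n n B →ₗ[B] Matrix n n B)
    (hm : ∀ x y, ψ (x * y) = ψ x * ψ y) (ht : ∀ x, (ψ x).trace = x.trace) : Cj id ψ := by
  rcases isEmpty_or_nonempty n with h | ⟨⟨o⟩⟩
  · exact ⟨1, 1, one_mul _, one_mul _, fun x => Subsingleton.elim _ _⟩
  obtain ⟨a, -, u, hu⟩ : ∃ a ∈ Finset.univ, IsUnit (ψ (single o o 1) a a) :=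
    IsLocalRing.exists_of_isUnit_sum (by
      show IsUnit (ψ (single o o 1)).trace
      rw [ht, trace_single_eq_same]
      exact isUnit_one)
  let P : Matrix n n B := Matrix.of fun i j => ψ (single j o 1) i a
  let Q : Matrix n n B := Matrix.of fun i j => (u⁻¹ : Bˣ) * ψ (single o i 1) a j
  have qp : Q * P = 1 := by
    ext i j
    have : (Q * P) i j = (u⁻¹ : Bˣ) * (ψ (single o i 1) * ψ (single j o 1)) a a := by
      simp only [mul_apply, Q, P, of_apply, Finset.mul_sum, mul_assoc]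
    rw [this, ← hm]
    by_cases h : i = j
    · rw [h, single_mul_single_same, mul_one, ← hu, one_apply_eq, Units.inv_mul]
    · rw [single_mul_single_of_ne _ _ _ _ h, map_zero, one_apply_ne h, Matrix.zero_apply,
        mul_zero]
  have pq : P * Q = 1 := mul_eq_one_comm.1 qp
  refine ⟨P, Q, pq, qp, fun x => ?_⟩
  have : ψ x * P = P * x := by
    ext i j
    have e1 : (ψ x * P) i j = (ψ x * ψ (single j o 1)) i a := by
      simp only [mul_apply, P, of_apply]
    have e2 : x * single j o 1 = ∑ k, x k j • single k o (1 : B) := by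
      ext k l
      simp [mul_apply, single_apply, Matrix.sum_apply, ite_and]
    rw [e1, ← hm, e2, map_sum, Matrix.sum_apply, mul_apply]
    exact Finset.sum_congr rfl fun k _ => by
      rw [map_smul, Matrix.smul_apply, smul_eq_mul, mul_comm]; rfl
  rw [id, ← this, mul_assoc, pq, mul_one]

theorem exists_lin {H : Type*} [Monoid H] {ρ ρ' : H →* Matrix n n B} (h : Spans ρ Set.univ)
    (ht : ∀ x, (ρ x).trace = (ρ' x).trace) : ∃ ψ : Matrix n n B →ₗ[B] Matrix n n B,
      Function.Surjective ψ ∧ (∀ x y, ψ (x * y) = ψ x * ψ y) ∧ (∀ x, (ψ x).trace = x.trace) ∧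
      ∀ x, ψ (ρ x) = ρ' x := by
  let π := MonoidAlgebra.lift B (Matrix n n B) H ρ
  let π' := MonoidAlgebra.lift B (Matrix n n B) H ρ'
  have su : Function.Surjective π := fun z => by
    induction h.ge (Submodule.mem_top : z ∈ ⊤) using Submodule.span_induction with
    | mem z hz => obtain ⟨t, -, rfl⟩ := hz; exact ⟨MonoidAlgebra.of B H t, by simp [π]⟩
    | zero => exact ⟨0, map_zero _⟩
    | add a b _ _ h1 h2 =>
      obtain ⟨x, rfl⟩ := h1
      obtain ⟨y, rfl⟩ := h2
      exact ⟨x + y, map_add _ _ _⟩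
    | smul c a _ h1 =>
      obtain ⟨x, rfl⟩ := h1
      exact ⟨c • x, map_smul _ _ _⟩
  have tr : ∀ x, (π x).trace = (π' x).trace := fun x => by
    induction x using MonoidAlgebra.induction_on with
    | of g => simpa [π, π'] using ht g
    | add x y h1 h2 => rw [map_add, map_add, trace_add, trace_add, h1, h2]
    | smul c x h1 => rw [map_smul, map_smul, trace_smul, trace_smul, h1]
  choose X hX using fun i j : n => su (single i j 1)
  let ψ : Matrix n n B →ₗ[B] Matrix n n B := (Matrix.stdBasis B n n).constr B fun p => π' (X p.1 p.2)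
  let χ : Matrix n n B →ₗ[B] Matrix n n B :=
    { toFun := fun y => Matrix.of fun i j => (y * π' (X j i)).trace
      map_add' := fun y z => by ext i j; simp [add_mul]
      map_smul' := fun c y => by ext i j; simp }
  have c1 : ∀ x, χ (π' x) = π x := fun x => by
    ext i j
    show (π' x * π' (X j i)).trace = _
    rw [← map_mul, ← tr, map_mul, hX, trace_mul_single]
    simp
  have c2 : χ * ψ = 1 := (Matrix.stdBasis B n n).ext fun p => by
    rw [Module.End.mul_apply, Module.Basis.constr_basis, c1, hX, Module.End.one_apply,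
      Matrix.stdBasis_eq_single]
  have c3 : ψ * χ = 1 := mul_eq_one_comm.1 c2
  have c4 : ∀ x, ψ (π x) = π' x := fun x => by rw [← c1]; exact LinearMap.congr_fun c3 _
  refine ⟨ψ, fun y => ⟨χ y, LinearMap.congr_fun c3 _⟩, fun x y => ?_, fun x => ?_, fun x => ?_⟩
  · obtain ⟨x, rfl⟩ := su x
    obtain ⟨y, rfl⟩ := su y
    rw [← map_mul, c4, c4, c4, map_mul]
  · obtain ⟨x, rfl⟩ := su x
    rw [c4, tr]
  · simpa [π, π'] using c4 (MonoidAlgebra.of B H x)

/-- spanning depends on the traces only -/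
theorem spans_of_trace {H : Type*} [Monoid H] {ρ ρ' : H →* Matrix n n B} (h : Spans ρ Set.univ)
    (ht : ∀ x, (ρ x).trace = (ρ' x).trace) : Spans ρ' Set.univ := by
  obtain ⟨ψ, a, -, -, d⟩ := exists_lin h ht
  have : ρ' '' Set.univ = ψ '' (ρ '' Set.univ) := by
    rw [Set.image_image]
    simp only [d]
  rw [Spans, this, ← Submodule.map_span, h, Submodule.map_top, LinearMap.range_eq_top.2 a]

/-- **Brauer, Nesbitt, Carayol**: equal traces give conjugate representations -/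
theorem bn [IsLocalRing B] {H : Type*} [Monoid H] {ρ ρ' : H →* Matrix n n B}
    (h : Spans ρ Set.univ) (ht : ∀ x, (ρ x).trace = (ρ' x).trace) : Cj ρ ρ' := by
  obtain ⟨ψ, -, b, c, d⟩ := exists_lin h ht
  obtain ⟨P, Q, p, q, e⟩ := inner ψ b c
  exact ⟨P, Q, p, q, fun x => by rw [← d, e, id]⟩

variable {G : Type*} [Group G]

theorem spans_sub {ρ : G → Matrix n n B} {A : Subgroup G} :
    Spans (fun x : A => ρ x) Set.univ ↔ Spans ρ A :=
  ⟨fun h => h.of_image fun x _ => ⟨x, x.2, rfl⟩, fun h => h.of_image fun x m => ⟨⟨x, m⟩, trivial, rfl⟩⟩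

/-- **uniqueness**: the traces on two subgroups with product `G` determine the representation -/
theorem uniq [IsLocalRing B] {ρ ρ' : G →* Matrix n n B} {A C : Subgroup G}
    (hG : ∀ g, ∃ a ∈ A, ∃ c ∈ C, g = a * c) (h : Spans ρ (A ⊓ C : Subgroup G))
    (hA : ∀ x ∈ A, (ρ x).trace = (ρ' x).trace) (hC : ∀ x ∈ C, (ρ x).trace = (ρ' x).trace) :
    Cj ρ ρ' := by
  obtain ⟨P, Q, p, q, e⟩ := bn (ρ := ρ.comp A.subtype) (ρ' := ρ'.comp A.subtype)
    (spans_sub.2 (h.mono fun x m => m.1)) fun x => hA x x.2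
  have e1 : ∀ x ∈ A, ρ x = Q * ρ' x * P := fun x m => by
    have : ρ' x = P * ρ x * Q := e ⟨x, m⟩
    rw [this, ← mul_assoc, ← mul_assoc, q, one_mul, mul_assoc, q, mul_one]
  have e2 := eq_of_trace (ρ := ρ.comp C.subtype) (ρ' := (cjH q p).comp (ρ'.comp C.subtype))
    (T := {x | (x : G) ∈ A}) (h.of_image fun x m => ⟨⟨x, m.2⟩, m.1, rfl⟩) (fun t m => e1 t m)
    fun x => (hC x x.2).trans (trace_conj p _).symm
  refine Cj.symm ⟨Q, P, q, p, fun g => ?_⟩
  obtain ⟨a, ha, c, hc, rfl⟩ := hG g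
  have e3 : ρ c = Q * ρ' c * P := DFunLike.congr_fun e2 ⟨c, hc⟩
  rw [map_mul, map_mul, e1 a ha, e3]
  exact ((cjH q p).map_mul _ _).symm

/-- gluing of two homomorphisms -/
theorem glue0 {M : Type*} [Monoid M] {A C : Subgroup G} [hA : A.Normal]
    (hG : ∀ g, ∃ a ∈ A, ∃ c ∈ C, g = a * c) (r : A →* M) (s : C →* M)
    (h1 : ∀ x (a : x ∈ A) (c : x ∈ C), r ⟨x, a⟩ = s ⟨x, c⟩)
    (h2 : ∀ (c : C) (a a' : A), (a' : G) = c * a * (c : G)⁻¹ → s c * r a = r a' * s c) :
    ∃ ρ : G →* M, (∀ a : A, ρ a = r a) ∧ ∀ c : C, ρ c = s c := by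
  choose a ha c hc e using hG
  have wd : ∀ (x : A) (y : C), r ⟨a (x * y), ha _⟩ * s ⟨c (x * y), hc _⟩ = r x * s y := fun x y => by
    have e1 : (x : G)⁻¹ * a (x * y) = y * (c (x * y))⁻¹ := by
      rw [inv_mul_eq_iff_eq_mul, ← mul_assoc, eq_mul_inv_iff_mul_eq, ← e]
    have m1 : (x : G)⁻¹ * a (x * y) ∈ A := mul_mem (inv_mem x.2) (ha _)
    have m2 : (x : G)⁻¹ * a (x * y) ∈ C := e1 ▸ mul_mem y.2 (inv_mem (hc _))
    have e2 : (⟨a (x * y), ha _⟩ : A) = x * ⟨_, m1⟩ := Subtype.ext (by simp)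
    have e3 : y = ⟨_, m2⟩ * ⟨c (x * y), hc _⟩ := Subtype.ext (by simp [e1])
    rw [e2, map_mul, h1 _ m1 m2, mul_assoc, ← map_mul, ← e3]
  let f : G → M := fun g => r ⟨a g, ha g⟩ * s ⟨c g, hc g⟩
  have wd' : ∀ (x : A) (y : C), f (x * y) = r x * s y := wd
  refine ⟨⟨⟨f, by simpa using wd' 1 1⟩, fun g g' => ?_⟩, fun x => by simpa using wd' x 1,
    fun y => by simpa using wd' 1 y⟩
  have k := wd' (⟨a g, ha g⟩ * ⟨_, hA.conj_mem _ (ha g') (c g)⟩) (⟨c g, hc g⟩ * ⟨c g', hc g'⟩)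
  have e4 : g * g' = a g * (c g * a g' * (c g)⁻¹) * (c g * c g') := by
    conv_lhs => rw [e g, e g']
    group
  show f (g * g') = f g * f g'
  rw [e4]
  refine k.trans ?_
  rw [map_mul, map_mul, mul_assoc, ← mul_assoc (r ⟨_ * _ * _, _⟩)]
  rw [← h2 ⟨c g, hc g⟩ ⟨a g', ha g'⟩ _ rfl]
  simp only [f, mul_assoc]

/-- **the gluing lemma** -/
theorem glue [IsLocalRing B] {A C : Subgroup G} [hA : A.Normal]
    (hG : ∀ g, ∃ a ∈ A, ∃ c ∈ C, g = a * c) (r : A →* Matrix n n B) (s : C →* Matrix n n B)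
    (h : Spans r {x | (x : G) ∈ C})
    (h1 : ∀ x (a : x ∈ A) (c : x ∈ C), (r ⟨x, a⟩).trace = (s ⟨x, c⟩).trace)
    (h2 : ∀ (c : C) (a a' : A), (a' : G) = c * a * (c : G)⁻¹ → (r a').trace = (r a).trace) :
    ∃ ρ : G →* Matrix n n B, (∀ a : A, ρ a = r a) ∧ Cj s fun c : C => ρ c := by
  obtain ⟨P, Q, p, q, e⟩ := (bn (ρ := r.comp (Subgroup.inclusion (inf_le_left : A ⊓ C ≤ A)))
    (ρ' := s.comp (Subgroup.inclusion (inf_le_right : A ⊓ C ≤ C)))
    (h.of_image fun x m => ⟨⟨x, x.2, m⟩, trivial, rfl⟩) fun x => h1 x x.2.1 x.2.2).symm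
  obtain ⟨s', hs⟩ : ∃ s' : C →* Matrix n n B, ∀ x, s' x = P * s x * Q :=
    ⟨(cjH p q).comp s, fun _ => rfl⟩
  have e1 : ∀ x (a : x ∈ A) (c : x ∈ C), r ⟨x, a⟩ = s' ⟨x, c⟩ := fun x a c =>
    (e ⟨x, a, c⟩).trans (hs _).symm
  obtain ⟨ρ, a, b⟩ := glue0 hG r s' e1 fun c a a' ha => by
    have i1 : s' c * s' c⁻¹ = 1 := by rw [← map_mul, mul_inv_cancel, map_one]
    have i2 : s' c⁻¹ * s' c = 1 := by rw [← map_mul, inv_mul_cancel, map_one]
    obtain ⟨φ, hφ⟩ : ∃ φ : A →* A, ∀ x, (φ x : G) = c * x * (c : G)⁻¹ :=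
      ⟨(MulAut.conjNormal (c : G)).toMonoidHom, fun _ => MulAut.conjNormal_apply _ _⟩
    obtain ⟨r', hr⟩ : ∃ r' : A →* Matrix n n B, ∀ x, r' x = s' c⁻¹ * r (φ x) * s' c :=
      ⟨(cjH i2 i1).comp (r.comp φ), fun _ => rfl⟩
    have k : ∀ t : A, (t : G) ∈ C → r t = r' t := fun t m => by
      have m' : (φ t : G) ∈ C := by
        rw [hφ]
        exact mul_mem (mul_mem c.2 m) (inv_mem c.2)
      have k1 : r (φ t) = s' ⟨_, m'⟩ := e1 _ (φ t).2 m'
      have k2 : r t = s' ⟨t, m⟩ := e1 _ t.2 m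
      have k3 : (⟨t, m⟩ : C) = c⁻¹ * ⟨_, m'⟩ * c := Subtype.ext (by
        show (t : G) = (c : G)⁻¹ * φ t * c
        rw [hφ]
        group)
      rw [hr, k1, k2, k3, map_mul s', map_mul s']
    have k' : r = r' := eq_of_trace h k fun x => by rw [hr, trace_conj i1, h2 c x _ (hφ x)]
    have e2 : a' = φ a := Subtype.ext (ha.trans (hφ _).symm)
    have e3 : r a = r' a := by rw [k']
    rw [e2, e3, hr, ← mul_assoc, ← mul_assoc, i1, one_mul]
  exact ⟨ρ, a, P, Q, p, q, fun x => (b x).trans (hs x)⟩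

section two

variable {k : Type*} [Field k]

theorem cramer {v x : Fin 2 → k} (h : v 0 * x 1 - v 1 * x 0 ≠ 0) (u : Fin 2 → k) :
    ∃ a b : k, u = a • v + b • x := by
  obtain ⟨d, hd⟩ := h.isUnit.exists_right_inv
  refine ⟨(u 0 * x 1 - u 1 * x 0) * d, (v 0 * u 1 - v 1 * u 0) * d, funext fun i => ?_⟩
  fin_cases i
  · simp; linear_combination (-u 0) * hd
  · simp; linear_combination (-u 1) * hd

theorem indep {v x : Fin 2 → k} (hv : v 1 ≠ 0) (h : ∀ a : k, x ≠ a • v) :
    v 0 * x 1 - v 1 * x 0 ≠ 0 := fun e => h (x 1 / v 1) (funext fun i => by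
  fin_cases i
  · simp; field_simp; linear_combination -e
  · simp; field_simp)

/-- **Burnside**: no stable line over an algebraically closed field -/
theorem burnside [IsAlgClosed k] {H : Type*} [Monoid H] (ρ : H →* Matrix (Fin 2) (Fin 2) k)
    (h : ∀ v : Fin 2 → k, v ≠ 0 → ∃ g, ∀ a : k, ρ g *ᵥ v ≠ a • v) : Spans ρ Set.univ := by
  let S := Submodule.span k (ρ '' Set.univ)
  have m1 : ∀ g, ρ g ∈ S := fun g => Submodule.subset_span ⟨g, trivial, rfl⟩
  have m0 : (1 : Matrix (Fin 2) (Fin 2) k) ∈ S := map_one ρ ▸ m1 1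
  have mm : ∀ x ∈ S, ∀ y ∈ S, x * y ∈ S := fun x hx y hy => by
    have := Submodule.mul_mem_mul hx hy
    rw [Submodule.span_mul_span] at this
    refine Submodule.span_mono ?_ this
    rintro _ ⟨_, ⟨g, -, rfl⟩, _, ⟨g', -, rfl⟩, rfl⟩
    exact ⟨g * g', trivial, map_mul ρ g g'⟩
  obtain ⟨g, hg⟩ := h ![1, 0] (by simp)
  have c0 : ρ g 1 0 ≠ 0 := fun e => hg (ρ g 0 0) (funext fun i => by
    fin_cases i <;> simp [mulVec, dotProduct, Fin.sum_univ_two, e])
  obtain ⟨a, ha⟩ := IsAlgClosed.exists_root (ρ g).charpoly (by simp)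
  rw [Polynomial.IsRoot, Matrix.charpoly_fin_two, trace_fin_two, det_fin_two] at ha
  simp only [Polynomial.eval_add, Polynomial.eval_sub, Polynomial.eval_mul, Polynomial.eval_pow,
    Polynomial.eval_C, Polynomial.eval_X] at ha
  let v : Fin 2 → k := ![ρ g 0 0 - a, ρ g 1 0]
  let l : Fin 2 → k := ![1, (ρ g 1 1 - a) / ρ g 1 0]
  have y : vecMulVec v l ∈ S := by
    have : vecMulVec v l = ρ g - a • 1 := by
      ext i j
      fin_cases i <;> fin_cases j <;> simp [v, l, vecMulVec_apply]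
      · field_simp; linear_combination ha
      · field_simp
    exact this ▸ S.sub_mem (m1 g) (S.smul_mem _ m0)
  obtain ⟨x, hx⟩ := h v fun e => c0 (congrFun e 1)
  obtain ⟨z, hz⟩ := h ![-l 1, 1] fun e => one_ne_zero (congrFun e 1)
  have d1 := indep (v := v) c0 hx
  have d2 : l 0 * (l ᵥ* ρ z) 1 - l 1 * (l ᵥ* ρ z) 0 ≠ 0 := fun e =>
    indep (v := ![-l 1, 1]) one_ne_zero hz (by
      simp [l, vecMul, mulVec, dotProduct, Fin.sum_univ_two] at e ⊢
      linear_combination -e)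
  have all : ∀ u w : Fin 2 → k, vecMulVec u w ∈ S := fun u w => by
    obtain ⟨a, b, rfl⟩ := cramer d1 u
    obtain ⟨c, d, rfl⟩ := cramer d2 w
    have := mm _ (mm _ (S.add_mem (S.smul_mem a m0) (S.smul_mem b (m1 x))) _ y) _
      (S.add_mem (S.smul_mem c m0) (S.smul_mem d (m1 z)))
    rwa [mul_vecMulVec, vecMulVec_mul, add_mulVec, smul_mulVec, smul_mulVec, one_mulVec,
      vecMul_add, vecMul_smul, vecMul_smul, vecMul_one] at this
  refine eq_top_iff.2 fun m _ => ?_
  have : m = vecMulVec ![1, 0] (m 0) + vecMulVec ![0, 1] (m 1) := by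
    ext i j
    rw [Matrix.add_apply, vecMulVec_apply, vecMulVec_apply]
    fin_cases i <;> simp
  exact this ▸ S.add_mem (all _ _) (all _ _)

/-- a spanning family has no stable line -/
theorem Spans.irr {H : Type*} {ρ : H → Matrix (Fin 2) (Fin 2) k} {T : Set H} (h : Spans ρ T)
    (v : Fin 2 → k) (hv : v ≠ 0) : ∃ g ∈ T, ∀ a : k, ρ g *ᵥ v ≠ a • v := by
  by_contra c
  push Not at c
  have : ∀ z : Matrix (Fin 2) (Fin 2) k, ∃ a : k, z *ᵥ v = a • v := fun z => by
    induction h.ge (Submodule.mem_top : z ∈ ⊤) using Submodule.span_induction with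
    | mem z hz => obtain ⟨t, ht, rfl⟩ := hz; exact c t ht
    | zero => exact ⟨0, by simp⟩
    | add x y _ _ h1 h2 =>
      obtain ⟨a, ha⟩ := h1
      obtain ⟨b, hb⟩ := h2
      exact ⟨a + b, by rw [add_mulVec, ha, hb, add_smul]⟩
    | smul c x _ h1 =>
      obtain ⟨a, ha⟩ := h1
      exact ⟨c * a, by rw [smul_mulVec, ha, mul_smul]⟩
  obtain ⟨a, ha⟩ := this !![0, 1; 0, 0]
  obtain ⟨b, hb⟩ := this !![0, 0; 1, 0]
  have a0 := congrFun ha 0
  have a1 := congrFun ha 1
  have b0 := congrFun hb 0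
  have b1 := congrFun hb 1
  simp only [mulVec, dotProduct, Fin.sum_univ_two, of_apply, cons_val', cons_val_zero, cons_val_one,
    cons_val_fin_one, zero_mul, one_mul, zero_add, add_zero, Pi.smul_apply, smul_eq_mul] at a0 a1 b0 b1
  have v1 : v 1 = 0 := pow_eq_zero_iff (two_ne_zero) |>.1 (by
    have : v 1 * v 0 = 0 := by
      rcases mul_eq_zero.1 a1.symm with h | h
      · rw [a0, h, zero_mul, zero_mul]
      · rw [h, zero_mul]
    linear_combination (v 1) * a0 + a * this)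
  refine hv (funext fun i => ?_)
  fin_cases i
  · exact b1.trans (by rw [v1, mul_zero]; rfl)
  · exact v1

end two

end Vale.Agent.P022K.Glue
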