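import Vale.Agent.P022K.Glue.Alg
import Vale.Agent.P022K.Cheb.Main

/-! # P022K, gluing of Galois representations with prescribed Frobenius traces -/

set_option linter.all false

open Matrix NumberField Topology
open scoped Pointwise

noncomputable section

namespace Vale.Agent.P022K.Glue

open Vale.Agent.P022 Vale.Agent.P022K.Cheb

variable {n B : Type*} [Fintype n] [DecidableEq n] [CommRing B] [TopologicalSpace B]
  [IsTopologicalRing B]

/-- spanning is an open condition -/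
theorem Spans.nhds {Γ : Type*} [Group Γ] [TopologicalSpace Γ] [IsTopologicalGroup Γ]
    (hu : IsOpen {x : B | IsUnit x}) {ρ : Γ → Matrix n n B} (hρ : Continuous ρ) {T : Set Γ}
    (h : Spans ρ T) : ∃ O ∈ 𝓝 (1 : Γ), ∀ T' : Set Γ, (∀ g ∈ T, ∃ t ∈ T', g⁻¹ * t ∈ O) →
      Spans ρ T' := by
  classical
  have ex : ∀ p : n × n, ∃ c : Γ →₀ B, ↑c.support ⊆ T ∧
      c.sum (fun g a => a • ρ g) = single p.1 p.2 1 := fun p => by
    obtain ⟨c, c1, c2⟩ := (Finsupp.mem_span_image_iff_linearCombination B).1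
      (h.ge (Submodule.mem_top : single p.1 p.2 (1 : B) ∈ ⊤))
    exact ⟨c, (Finsupp.mem_supported B c).1 c1, c2⟩
  choose c c1 c2 using ex
  let X : (Γ → Γ) → n × n → Matrix n n B := fun u p => (c p).sum fun g a => a • ρ (g * u g)
  let D : (Γ → Γ) → Matrix (n × n) (n × n) B := fun u => Matrix.of fun p q => X u p q.1 q.2
  have cD : Continuous fun u => (D u).det := Continuous.matrix_det (continuous_matrix fun p q =>
    Continuous.matrix_elem (A := fun u => X u p) (continuous_finsetSum _ fun g _ =>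
      (hρ.comp (continuous_const.mul (continuous_apply g))).const_smul (c p g)) q.1 q.2)
  have D1 : D 1 = 1 := by
    ext p q
    simp only [D, X, of_apply, Pi.one_apply, mul_one, c2, single_apply, one_apply, Prod.ext_iff]
  have m := (hu.preimage cD).mem_nhds (show (D 1).det ∈ {x : B | IsUnit x} by
    rw [D1, det_one]; exact isUnit_one)
  rw [nhds_pi, Filter.mem_pi] at m
  obtain ⟨I, I1, t, t1, t2⟩ := m
  refine ⟨⋂ g ∈ I, t g, (Filter.biInter_mem I1).2 fun g _ => t1 g, fun T' hT => ?_⟩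
  choose! y y1 y2 using hT
  let u : Γ → Γ := fun g => if g ∈ T then g⁻¹ * y g else 1
  have un : IsUnit (D u).det := t2 fun g hg => by
    simp only [u]
    split_ifs with k
    · exact Set.mem_iInter₂.1 (y2 g k) g hg
    · exact mem_of_mem_nhds (t1 g)
  have mX : ∀ p, X u p ∈ Submodule.span B (ρ '' T') := fun p =>
    Submodule.sum_mem _ fun g hg => Submodule.smul_mem _ _ (Submodule.subset_span
      ⟨y g, y1 g (c1 p hg), by simp only [u, if_pos (c1 p hg), mul_inv_cancel_left]⟩)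
  refine eq_top_iff.2 fun z _ => ?_
  have e : z = ∑ p, ((fun q : n × n => z q.1 q.2) ᵥ* (D u)⁻¹) p • X u p := by
    ext i j
    have := congrFun (vecMul_vecMul (fun q : n × n => z q.1 q.2) (D u)⁻¹ (D u)) (i, j)
    rw [nonsing_inv_mul _ un, vecMul_one] at this
    rw [Matrix.sum_apply, ← this]
    rfl
  rw [e]
  exact Submodule.sum_mem _ fun p _ => Submodule.smul_mem _ _ (mX p)

theorem exists_normal {O : Set GQ} (h : O ∈ 𝓝 (1 : GQ)) :
    ∃ W : Subgroup GQ, W.Normal ∧ IsOpen (W : Set GQ) ∧ (W : Set GQ) ⊆ O := by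
  have h1 : Algebra.IsAlgebraic ℚ Qb := AlgebraicClosure.isAlgebraic ℚ
  have h2 : IsAlgClosure ℚ Qb := ⟨inferInstance, inferInstance⟩
  have h3 : IsGalois ℚ Qb := IsAlgClosure.isGalois ℚ Qb
  obtain ⟨O', a, b, c⟩ := mem_nhds_iff.1 h
  obtain ⟨U, hU⟩ := ProfiniteGrp.exist_openNormalSubgroup_sub_open_nhds_of_one b c
  exact ⟨U.toSubgroup, inferInstance, U.isOpen, fun x m => a (hU m)⟩

/-- the fixed fields of `A` and of `W` are linearly disjoint -/
def Dsj (A W : Subgroup GQ) : Prop := ∀ g : GQ, ∃ x ∈ A, g⁻¹ * x ∈ W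

/-- a spanning representation of an open subgroup spans on all subgroups disjoint from a fixed
finite Galois extension -/
theorem Spans.exists_open (hu : IsOpen {x : B | IsUnit x}) {H : Subgroup GQ}
    (hH : IsOpen (H : Set GQ)) {r : H → Matrix n n B} (hr : Continuous r) (h : Spans r Set.univ) :
    ∃ W : Subgroup GQ, W.Normal ∧ IsOpen (W : Set GQ) ∧ W ≤ H ∧
      ∀ T : Set GQ, (∀ g ∈ H, ∃ x ∈ T, g⁻¹ * x ∈ W) → Spans r {x | (x : GQ) ∈ T} := by
  obtain ⟨O, O1, O2⟩ := h.nhds hu hr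
  obtain ⟨W, a, b, c⟩ := exists_normal (hH.isOpenMap_subtype_val.image_mem_nhds O1)
  have le : W ≤ H := fun x m => by
    obtain ⟨y, -, rfl⟩ := c m
    exact y.2
  refine ⟨W, a, b, le, fun T hT => O2 _ fun g _ => ?_⟩
  obtain ⟨x, x1, x2⟩ := hT g g.2
  obtain ⟨y, y1, y2⟩ := c x2
  refine ⟨g * y, ?_, by rwa [inv_mul_cancel_left]⟩
  show (g : GQ) * y ∈ T
  rwa [y2, mul_inv_cancel_left]

theorem isFrob_conj {l : ℕ} {φ : GQ} (h : IsFrob l φ) (g : GQ) : IsFrob l (g * φ * g⁻¹) := by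
  obtain ⟨P, a, b, c⟩ := h
  refine ⟨g • P, inferInstance, ?_, fun x => ?_⟩
  · rw [Ideal.mem_pointwise_smul_iff_inv_smul_mem]
    have : g⁻¹ • (l : 𝓞 Qb) = l := map_natCast (MulSemiringAction.toRingHom GQ (𝓞 Qb) g⁻¹) l
    rwa [this]
  · rw [Ideal.mem_pointwise_smul_iff_inv_smul_mem, smul_sub, smul_pow', smul_smul, mul_assoc,
      inv_mul_cancel_left, mul_smul]
    exact c _

omit [IsTopologicalRing B] in
theorem cont_of_open {A : Subgroup GQ} (hA : IsOpen (A : Set GQ)) {M : Type*} [Monoid M]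
    [TopologicalSpace M] [ContinuousMul M] (ρ : GQ →* M) (h : Continuous fun a : A => ρ a) :
    Continuous ρ := by
  refine continuous_iff_continuousAt.2 fun g => ?_
  have h1 : ContinuousAt ρ 1 :=
    (continuousOn_iff_continuous_restrict.2 h).continuousAt (hA.mem_nhds A.one_mem)
  have e : ⇑ρ = fun x => ρ g * ρ (g⁻¹ * x) := funext fun x => by
    rw [← map_mul, mul_inv_cancel_left]
  rw [e]
  exact continuousAt_const.mul (ContinuousAt.comp_of_eq h1
    (continuous_const.mul continuous_id).continuousAt (inv_mul_cancel g))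

/-- `r` is continuous and its traces at almost all Frobenius elements in `H` are given by `τ` -/
def Cm (τ : GQ → B) (H : Subgroup GQ) (r : H →* Matrix n n B) : Prop :=
  Continuous r ∧ ∃ S : Finset ℕ, ∀ (ℓ : ℕ) (φ : H), ℓ.Prime → ℓ ∉ S → IsFrob ℓ φ →
    (r φ).trace = τ φ

variable [T2Space B]

theorem Cm.eq {τ : GQ → B} {A C : Subgroup GQ} (hA : IsOpen (A : Set GQ))
    (hC : IsOpen (C : Set GQ)) {r : A →* Matrix n n B} {s : C →* Matrix n n B} (hr : Cm τ A r)
    (hs : Cm τ C s) (x : GQ) (a : x ∈ A) (c : x ∈ C) : (r ⟨x, a⟩).trace = (s ⟨x, c⟩).trace := by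
  obtain ⟨r1, S, r2⟩ := hr
  obtain ⟨s1, S', s2⟩ := hs
  exact congrFun (ext_fr (H := A ⊓ C) (hA.inter hC) (f := fun y => (r ⟨y, y.2.1⟩).trace)
    (f' := fun y => (s ⟨y, y.2.2⟩).trace)
    (r1.comp (continuous_subtype_val.subtype_mk _)).matrix_trace
    (s1.comp (continuous_subtype_val.subtype_mk _)).matrix_trace (S ∪ S') fun l φ h1 h2 h3 =>
      (r2 l _ h1 (fun h => h2 (Finset.mem_union_left _ h)) h3).trans
        (s2 l ⟨φ, φ.2.2⟩ h1 (fun h => h2 (Finset.mem_union_right _ h)) h3).symm) ⟨x, a, c⟩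

theorem Cm.conj {τ : GQ → B} (hτ : ∀ g x, τ (g * x * g⁻¹) = τ x) {A : Subgroup GQ} [hn : A.Normal]
    (hA : IsOpen (A : Set GQ)) {r : A →* Matrix n n B} (hr : Cm τ A r) (g : GQ) (a a' : A)
    (h : (a' : GQ) = g * a * g⁻¹) : (r a').trace = (r a).trace := by
  obtain ⟨r1, S, r2⟩ := hr
  have := congrFun (ext_fr hA (f := fun y => (r ⟨g * y * g⁻¹, hn.conj_mem _ y.2 g⟩).trace)
    (f' := fun y => (r y).trace) (r1.comp (((continuous_const.mul continuous_subtype_val).mul
      continuous_const).subtype_mk _)).matrix_trace r1.matrix_trace S fun l φ h1 h2 h3 =>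
      (r2 l _ h1 h2 (isFrob_conj h3 g)).trans ((hτ g φ).trans (r2 l φ h1 h2 h3).symm)) a
  rwa [show a' = ⟨g * a * g⁻¹, hn.conj_mem _ a.2 g⟩ from Subtype.ext h]

/-- **COMP**: representations on two disjoint Galois fields with Frobenius traces given by one
class function glue, and the result restricts to every third representation of this kind -/
theorem comp [IsLocalRing B] (hu : IsOpen {x : B | IsUnit x}) {τ : GQ → B}
    (hτ : ∀ g x, τ (g * x * g⁻¹) = τ x) {A : Subgroup GQ} [A.Normal] (hA : IsOpen (A : Set GQ))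
    {r : A →* Matrix n n B} (hr : Cm τ A r) (hs : Spans r Set.univ) :
    ∃ W : Subgroup GQ, W.Normal ∧ IsOpen (W : Set GQ) ∧ W ≤ A ∧
      ∀ C : Subgroup GQ, C.Normal → IsOpen (C : Set GQ) → Dsj C W →
      ∀ s : C →* Matrix n n B, Cm τ C s →
      ∃ ρ : GQ →* Matrix n n B, Continuous ρ ∧ (∀ a : A, ρ a = r a) ∧
        ∀ D : Subgroup GQ, IsOpen (D : Set GQ) → Dsj D (W ⊓ C) →
        ∀ t : D →* Matrix n n B, Cm τ D t → Cj t fun d : D => ρ d := by
  obtain ⟨W, W1, W2, W3, W4⟩ := hs.exists_open hu hA hr.1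
  refine ⟨W, W1, W2, W3, fun C hn hC d s h => ?_⟩
  have hG : ∀ g : GQ, ∃ a ∈ A, ∃ c ∈ C, g = a * c := fun g => by
    obtain ⟨x, x1, x2⟩ := d g⁻¹
    exact ⟨_, W3 x2, _, inv_mem x1, by group⟩
  obtain ⟨ρ, a, b⟩ := glue hG r s (W4 C fun g _ => d g) (hr.eq hA hC h) fun c => hr.conj hτ hA c
  refine ⟨ρ, cont_of_open hA ρ (by simp only [a]; exact hr.1), a, fun D hD d' t ht => ?_⟩
  refine (uniq (ρ := ρ.comp D.subtype) (ρ' := t) (A := A.subgroupOf D) (C := C.subgroupOf D)
    (fun g => ?_) ?_ (fun x m => ?_) fun x m => ?_).symm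
  · obtain ⟨x, x1, y, y1, e⟩ := hG g
    obtain ⟨z, z1, z2⟩ := d' x
    refine ⟨⟨z, z1⟩, ?_, ⟨z, z1⟩⁻¹ * g, ?_, by group⟩
    · have := mul_mem x1 (W3 z2.1)
      rwa [mul_inv_cancel_left] at this
    · show z⁻¹ * g ∈ C
      have := C.mul_mem (C.inv_mem z2.2) y1
      rwa [_root_.mul_inv_rev, inv_inv, mul_assoc, ← e] at this
  · refine (W4 ((C : Set GQ) ∩ D) fun g _ => ?_).of_image fun x m =>
      ⟨⟨x, m.2⟩, ⟨x.2, m.1⟩, a x⟩
    obtain ⟨x, x1, x2⟩ := d g
    obtain ⟨z, z1, z2⟩ := d' x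
    have k1 := mul_mem x1 z2.2
    have k2 := mul_mem x2 z2.1
    rw [mul_inv_cancel_left] at k1
    rw [mul_assoc, mul_inv_cancel_left] at k2
    exact ⟨z, ⟨k1, z1⟩, k2⟩
  · exact (congrArg Matrix.trace (a ⟨x, m⟩)).trans (hr.eq hA hD ht x m x.2)
  · exact (b.trace ⟨x, m⟩).trans (h.eq hC hD ht x m x.2)

/-- the class function attached to a pair of embeddings of the coefficient ring -/
def tau {M E : Type*} [CommRing M] [CommRing E] (lam : M →+* E) (mu : M →+* B) (t : GQ → E)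
    (x : GQ) : B := mu (Function.invFun lam (t x))

omit [IsTopologicalRing B] [T2Space B] in
theorem tau_eq {M E : Type*} [CommRing M] [CommRing E] {lam : M →+* E}
    (h : Function.Injective lam) (mu : M →+* B) {t : GQ → E} {x : GQ} {a : M} (e : lam a = t x) :
    tau lam mu t x = mu a := by
  rw [tau, ← e, Function.leftInverse_invFun h]

omit [IsTopologicalRing B] [T2Space B] in
theorem tau_conj {M E : Type*} [CommRing M] [CommRing E] (lam : M →+* E) (mu : M →+* B)
    {t : GQ → E} (h : ∀ g x, t (g * x * g⁻¹) = t x) (g x : GQ) :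
    tau lam mu t (g * x * g⁻¹) = tau lam mu t x := by
  rw [tau, tau, h]

end Vale.Agent.P022K.Glue
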